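import Vale.Agent.P014T.Dg.Fd
import Vale.Agent.P014T.Z.Defs
import Vale.Agent.P004Z.Ar.Psi
import Vale.Agent.P004Z.Ar.Ws
import Vale.Agent.P004Z.EF.Lat

/-! # the degree formula in the words of the modular parametrisation -/

open MeasureTheory Set UpperHalfPlane CongruenceSubgroup IntermediateField
open scoped ComplexConjugate MatrixGroups Real Classical

noncomputable section

namespace Vale.Agent.P014T.Dg

open Vale.Agent.P004Z Vale.Agent.P004Z.Ar P004N Vale.Agent.P022.H218.L3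
open Vale.Agent.P027H (IsLat wp dwp)
open Vale.Agent.P014T.Z (Cov ix)

variable {N M : ℕ} {G g h I : ℍ → ℂ} {a : ℕ → ℤ} {Λ : Submodule ℤ ℂ} {c : ℝ}

theorem pet_idx (hM : 0 < M) (d : N ∣ M) (hg : S2 N g) (hh : S2 N h) :
    pet2 M g h = (Gamma0 M).relIndex (Gamma0 N) * pet2 N g h := by
  have : NeZero M := ⟨hM.ne'⟩
  have : NeZero N := ⟨fun e => hM.ne' (Nat.eq_zero_of_zero_dvd (e ▸ d))⟩
  have := Subgroup.fintypeQuotientOfFiniteIndex (H := Gamma0 M)
  have := Subgroup.fintypeQuotientOfFiniteIndex (H := Gamma0 N)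
  have := Subgroup.fintypeQuotientOfFiniteIndex (H := (Gamma0 M).subgroupOf (Gamma0 N))
  let f : SL(2, ℤ) → ℂ := fun γ => ∫ z in FD, petersson 2 h g (γ⁻¹ • ofComplex z) / z.im ^ 2
  have e : ∀ x y : SL(2, ℤ), (x : SL(2, ℤ) ⧸ Gamma0 N) = y → f x = f y := fun x y k => by
    have m := QuotientGroup.eq.1 k
    simp only [f]
    refine integral_congr_ae (.of_forall fun z => ?_)
    have := petersson_slash_SL 2 h g (x⁻¹ * y) (y⁻¹ • ofComplex z)
    rw [hg.slash _ m, hh.slash _ m, mul_smul, smul_inv_smul] at this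
    simp only [this]
  let E := Subgroup.quotientEquivProdOfLE (g0_le d)
  rw [pet2, pet2, finsum_eq_sum_of_fintype, finsum_eq_sum_of_fintype,
    Fintype.sum_equiv E (fun q => f q.out) (fun p => f p.1.out) fun q => e _ _ (by
      rw [QuotientGroup.out_eq']
      conv_rhs => rw [← q.out_eq']
      rfl), Fintype.sum_prod_type, Finset.mul_sum]
  refine Finset.sum_congr rfl fun q _ => ?_
  simp only
  rw [Finset.sum_const, Finset.card_univ, nsmul_eq_mul, Subgroup.relIndex, Subgroup.index,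
    Nat.card_eq_fintype_card]

/-- an oriented basis -/
theorem cov_pos (hL : IsLat Λ) (h : Cov Λ c) : ∃ u v : ℂ, 0 < (conj u * v).im ∧
    (∀ z, z ∈ Λ ↔ ∃ m n : ℤ, z = m * u + n * v) ∧ c = (conj u * v).im := by
  obtain ⟨u, v, b, rfl⟩ := h
  have s : (conj v * u).im = -(conj u * v).im := by
    simp only [Complex.mul_im, Complex.conj_re, Complex.conj_im]
    ring
  rcases lt_trichotomy 0 (conj u * v).im with k | k | k
  · exact ⟨u, v, k, b, abs_of_pos k⟩
  · obtain ⟨L, rfl⟩ := hL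
    obtain ⟨m, n, e⟩ := (b _).1 L.ω₁_mem_lattice
    obtain ⟨m', n', e'⟩ := (b _).1 L.ω₂_mem_lattice
    have z : (conj L.ω₁ * L.ω₂).im = 0 := by
      rw [e, e']
      simp only [Complex.mul_im, Complex.conj_re, Complex.conj_im, Complex.add_re, Complex.add_im,
        Complex.mul_re, Complex.intCast_re, Complex.intCast_im] at k ⊢
      linear_combination (m' * n - m * n') * k
    simp only [Complex.mul_im, Complex.conj_re, Complex.conj_im] at z
    have i := LinearIndependent.pair_iff.1 L.indep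
    have p := i L.ω₂.im (-L.ω₁.im) (Complex.ext (by simp; linarith) (by simp; ring))
    have q := i L.ω₂.re (-L.ω₁.re) (Complex.ext (by simp; ring) (by simp; linarith))
    exact absurd (i 1 0 (by
      rw [one_smul, zero_smul, add_zero]
      exact Complex.ext (neg_eq_zero.1 q.2) (neg_eq_zero.1 p.2))).1 one_ne_zero
  · refine ⟨v, u, by rw [s]; exact neg_pos.2 k, fun z => (b z).trans ?_, by rw [s, abs_of_neg k]⟩
    exact ⟨fun ⟨m, n, e⟩ => ⟨n, m, e.trans (add_comm _ _)⟩,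
      fun ⟨m, n, e⟩ => ⟨n, m, e.trans (add_comm _ _)⟩⟩

theorem ex_cov (hL : IsLat Λ) : ∃ c, 0 < c ∧ Cov Λ c := by
  have k : ∃ c, Cov Λ c := by
    obtain ⟨L, rfl⟩ := hL
    exact ⟨_, L.ω₁, L.ω₂, fun z => L.mem_lattice.trans (by simp only [eq_comm]), rfl⟩
  obtain ⟨c, k⟩ := k
  obtain ⟨u, v, a, -, e⟩ := cov_pos hL k
  exact ⟨c, e ▸ a, k⟩

theorem cov_uq (hL : IsLat Λ) {c' : ℝ} (h : Cov Λ c) (h' : Cov Λ c') : c = c' := by
  obtain ⟨u, v, a, b, rfl⟩ := cov_pos hL h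
  obtain ⟨u', v', a', b', rfl⟩ := cov_pos hL h'
  obtain ⟨_, P, hP, e⟩ := fund a b
  obtain ⟨_, P', hP', e'⟩ := fund a' b'
  have : VAddInvariantMeasure Λ ℂ volume :=
    (inferInstance : VAddInvariantMeasure Λ.toAddSubgroup ℂ volume)
  have := hP.measure_eq hP'
  rwa [e, e', ENNReal.ofReal_eq_ofReal_iff a.le a'.le] at this

/-- the covolume of the lattice `ℤ w + ℤ (r + v i)` -/
theorem cov_shape {w v r : ℝ} (hw : 0 < w) (hv : 0 < v)
    (h : ∀ z, z ∈ Λ ↔ ∃ m n : ℤ, z = m * w + n * (r + v * Complex.I)) : Cov Λ (w * v) :=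
  ⟨w, _, h, by simp [abs_mul, abs_of_pos hw, abs_of_pos hv]⟩

theorem der_of {w : ℕ} (q : QE G fun n => (a n : ℂ)) (h0 : a 0 = 0)
    (e : ∀ τ, I τ = Pr (fun n => (a n : ℂ)) τ / w) (τ : ℍ) :
    HasDerivAt (I ∘ ofComplex) (2 * π * Complex.I / w * G τ) τ := by
  have := (EF.prim_Pr q (by simp [h0]) τ).div_const (w : ℂ)
  rw [div_mul_eq_mul_div]
  exact this.congr_of_eventuallyEq (.of_forall fun z => e _)

theorem nm_c (w : ℕ) : ‖(2 * π * Complex.I / w : ℂ)‖ ^ 2 = 4 * π ^ 2 / w ^ 2 := by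
  simp [div_pow, mul_pow]
  norm_num

/-- **degree of the field extension** -/
theorem fdeg' {w : ℕ} (r : RN N G a) (hw : 0 < w) (e : ∀ τ, I τ = Pr (fun n => (a n : ℂ)) τ / w)
    (hL : IsLat Λ) (inv : ∀ γ ∈ Gamma0 N, ∀ τ, I (γ • τ) - I τ ∈ Λ) {x y : MF (Gamma0 N)}
    (xv : ∀ τ, I τ ∉ Λ → EF.Val τ x (wp Λ (I τ)))
    (yv : ∀ τ, I τ ∉ Λ → EF.Val τ y (dwp Λ (I τ) / 2)) (hc : Cov Λ c) :
    (Module.finrank (adjoin ℂ {x, y}) (MF (Gamma0 N)) * c * w ^ 2 : ℂ) = 4 * π ^ 2 * pet2 N G G := by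
  obtain ⟨u, v, p, b, rfl⟩ := cov_pos hL hc
  have d := der_of r.qe r.zero e
  have w0 : (w : ℂ) ≠ 0 := Nat.cast_ne_zero.2 hw.ne'
  have c0 : (2 * π * Complex.I / w : ℂ) ≠ 0 := div_ne_zero Complex.two_pi_I_ne_zero w0
  have := fdeg r.pos ⟨hL, P022K.F0.Cf.hol_of_loc fun τ => ⟨_, (d τ).differentiableAt,
    .of_forall fun σ => by simp⟩, fun k q => ?_, xv, yv⟩ inv p b d
  · rw [nm_c] at this
    push_cast at this
    rw [this]
    field_simp
  · have z : G = 0 := funext fun τ => (mul_eq_zero.1 ((d τ).unique (by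
      rw [q]
      exact hasDerivAt_const _ _))).resolve_left c0
    have := H461.QE.zero_eq (z ▸ r.qe) 1
    simp [r.one] at this

/-- **the degree of row `DEG`** -/
theorem pz (r : RN N G a) (D : Pz N a) {m : ℕ}
    (hm : ∀ t, D.Nc t → Dv N (cs (D.pb t)) ∧ ws (4 * N) (cs (D.pb t)) 1 = m) (hc : Cov D.Λ c) :
    (m * c * D.w ^ 2 : ℂ) = 4 * π ^ 2 * (ix N * pet2 N G G) := by
  obtain ⟨u, v, p, b, rfl⟩ := cov_pos D.par.lat hc
  have d := der_of r.qe r.zero D.par.I_eq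
  have w0 : (D.w : ℂ) ≠ 0 := Nat.cast_ne_zero.2 D.par.wpos.ne'
  have N4 : 0 < 4 * N := mul_pos four_pos r.pos
  have := (fund p b).1
  have := deg0 (m := m) N4 p b d (fun γ k => D.inv γ (g0_le (Dvd.intro_left 4 rfl) k)) (by
    filter_upwards [good' d D.Λ, D.cnt_nc.ae_notMem volume] with t g n
    obtain ⟨k, e⟩ := hm t (not_not.1 n)
    have f := (k.mono N4 (Dvd.intro_left 4 rfl)).sup
    have s : {q : Qo (4 * N) | cs (D.pb t) q.out ≠ 0} = {o | D.I o.out - t ∈ D.Λ} :=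
      Set.ext fun q => Int.cast_ne_zero.trans D.pb_ne
    rw [ws, finsum_eq_sum_of_support_subset (s := f.toFinset) _ fun q k => by
      simpa using left_ne_zero_of_mul k, Finset.sum_congr rfl (g := fun _ => 1) fun q k => by
        have k : D.I q.out - t ∈ D.Λ := D.pb_ne.1 (Int.cast_ne_zero.1 (f.mem_toFinset.1 k))
        have o := (D.an q.out).analyticOrderAt_sub_eq_one_of_deriv_ne_zero
          ((d q.out).deriv.trans_ne (g _ k).1)
        simp only [ofComplex_apply] at o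
        simp only [cs, Pz.pb, if_pos k, Pz.e, analyticOrderNatAt, o]
        simp, Finset.sum_const, nsmul_one, Nat.cast_inj] at e
    rw [← s, f.encard_eq_coe_toFinset_card, e])
  rw [nm_c, pet_idx N4 (Dvd.intro_left 4 rfl) r.s2 r.s2] at this
  push_cast at this
  rw [this, ix]
  field_simp

/-- the two degrees -/
theorem pz_eq (r : RN N G a) (D : Pz N a) {m : ℕ}
    (hm : ∀ t, D.Nc t → Dv N (cs (D.pb t)) ∧ ws (4 * N) (cs (D.pb t)) 1 = m) :
    m = ix N * Module.finrank (adjoin ℂ {(⟨D.x, D.par.xm⟩ : MF (Gamma0 N)), ⟨D.y, D.par.ym⟩})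
      (MF (Gamma0 N)) := by
  obtain ⟨c, c0, hc⟩ := ex_cov D.par.lat
  have a1 := pz r D hm hc
  have a2 := fdeg' r D.par.wpos D.par.I_eq D.par.lat D.inv (x := ⟨D.x, D.par.xm⟩)
    (y := ⟨D.y, D.par.ym⟩) D.par.xv D.par.yv hc
  have : (c * D.w ^ 2 : ℂ) ≠ 0 := mul_ne_zero (Complex.ofReal_ne_zero.2 c0.ne')
    (pow_ne_zero 2 (Nat.cast_ne_zero.2 D.par.wpos.ne'))
  exact Nat.cast_injective (R := ℂ) (mul_right_cancel₀ this (by
    push_cast
    linear_combination a1 - ix N * a2))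

end Vale.Agent.P014T.Dg
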