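import Mathlib.MeasureTheory.Function.Jacobian
import Mathlib.Algebra.Module.ZLattice.Basic
import Mathlib.MeasureTheory.Measure.Lebesgue.Complex
import Mathlib.MeasureTheory.Measure.Haar.InnerProductSpace
import Mathlib.Analysis.Complex.RealDeriv
import Mathlib.LinearAlgebra.Complex.FiniteDimensional

/-! # The area formula with multiplicities for holomorphic maps to `ℂ / Λ` -/

open MeasureTheory Set Complex Module
open scoped ENNReal NNReal ComplexConjugate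

noncomputable section

namespace Vale.Agent.P014T.Dg

theorem det_mul (c : ℂ) : (c • (1 : ℂ →L[ℝ] ℂ)).det = ‖c‖ ^ 2 := by
  rw [ContinuousLinearMap.det, ← LinearMap.det_toMatrix Complex.basisOneI, Matrix.det_fin_two]
  simp [LinearMap.toMatrix_apply, Complex.sq_norm, Complex.normSq_apply]

theorem part {A : Set ℂ} {F F' : ℂ → ℂ} (h : ∀ z ∈ A, HasDerivAt F (F' z) z)
    (h0 : ∀ z ∈ A, F' z ≠ 0) : ∃ t : ℕ → Set ℂ, Pairwise (Function.onFun Disjoint t) ∧
      (∀ n, MeasurableSet (t n)) ∧ A ⊆ ⋃ n, t n ∧ ∀ n, InjOn F (A ∩ t n) := by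
  classical
  obtain ⟨t, B, h1, h2, h3, h4, h5⟩ := exists_partition_approximatesLinearOn_of_hasFDerivWithinAt
    F A (fun z => F' z • (1 : ℂ →L[ℝ] ℂ))
    (fun z a => (h z a).complexToReal_fderiv.hasFDerivWithinAt)
    (fun B => if B 1 = 0 then 1 else ‖B 1‖₊ / 2) fun B => by
      split_ifs with e
      · exact one_ne_zero
      · exact div_ne_zero (nnnorm_ne_zero_iff.2 e) two_ne_zero
  refine ⟨t, h1, h2, h3, fun n x hx y hy e => ?_⟩
  obtain ⟨u, hu, q⟩ := h5 ⟨x, hx.1⟩ n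
  have := h4 n x hx y hy
  have u0 := h0 u hu
  rw [q, e, sub_self, zero_sub, norm_neg] at this
  simp only [smul_apply, one_apply_eq_self, smul_eq_mul, mul_one,
    if_neg u0, norm_mul, NNReal.coe_div, coe_nnnorm, NNReal.coe_ofNat] at this
  have p := norm_pos_iff.2 u0
  have : ‖x - y‖ ≤ 0 := by nlinarith [norm_nonneg (x - y)]
  exact sub_eq_zero.1 (norm_le_zero_iff.1 this)

/-- **area formula** -/
theorem area {ι : Type} [Countable ι] {A : ι → Set ℂ} (hA : ∀ i, MeasurableSet (A i))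
    {F F' : ι → ℂ → ℂ} (h : ∀ i, ∀ z ∈ A i, HasDerivAt (F i) (F' i z) z)
    (h0 : ∀ i, ∀ z ∈ A i, F' i z ≠ 0) {Λ : Submodule ℤ ℂ} [Countable Λ] {P : Set ℂ}
    (hP : IsAddFundamentalDomain Λ P volume) :
    ∑' i, ∫⁻ z in A i, ENNReal.ofReal (‖F' i z‖ ^ 2) =
      ∫⁻ t in P, ({p : ι × ℂ | p.2 ∈ A p.1 ∧ F p.1 p.2 - t ∈ Λ}.encard : ℝ≥0∞) := by
  choose t h1 h2 h3 h4 using fun i => part (h i) (h0 i)
  have : VAddInvariantMeasure Λ ℂ volume :=
    (inferInstance : VAddInvariantMeasure Λ.toAddSubgroup ℂ volume)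
  have d : ∀ i n, ∀ z ∈ A i ∩ t i n, HasFDerivWithinAt (F i) (F' i z • (1 : ℂ →L[ℝ] ℂ))
      (A i ∩ t i n) z := fun i n z a => (h i z a.1).complexToReal_fderiv.hasFDerivWithinAt
  have m : ∀ i n, MeasurableSet (F i '' (A i ∩ t i n)) := fun i n =>
    measurable_image_of_fderivWithin ((hA i).inter (h2 i n)) (d i n) (h4 i n)
  have e1 : ∀ i, ∫⁻ z in A i, ENNReal.ofReal (‖F' i z‖ ^ 2) = ∑' n, ∑' l : Λ,
      ∫⁻ u in P, (F i '' (A i ∩ t i n)).indicator 1 (l +ᵥ u) := fun i => by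
    have q : A i = ⋃ n, A i ∩ t i n := by
      rw [← inter_iUnion, inter_eq_left.2 (h3 i)]
    conv_lhs => rw [q]
    rw [lintegral_iUnion (fun n => (hA i).inter (h2 i n))
      fun a b c => (h1 i c).mono inter_subset_right inter_subset_right]
    refine tsum_congr fun n => ?_
    rw [← hP.lintegral_eq_tsum'', lintegral_indicator_one (m i n),
      ← lintegral_abs_det_fderiv_eq_addHaar_image volume ((hA i).inter (h2 i n)) (d i n) (h4 i n)]
    simp only [det_mul, abs_pow, abs_norm]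
  simp only [e1]
  have e2 : ∀ i, ∑' n, ∑' l : Λ, ∫⁻ u in P, (F i '' (A i ∩ t i n)).indicator (1 : ℂ → ℝ≥0∞) (l +ᵥ u) =
      ∑' x : ℕ × Λ, ∫⁻ u in P, (F i '' (A i ∩ t i x.1)).indicator 1 (x.2 +ᵥ u) := fun i =>
    (ENNReal.tsum_prod (f := fun n (l : Λ) =>
      ∫⁻ u in P, (F i '' (A i ∩ t i n)).indicator (1 : ℂ → ℝ≥0∞) (l +ᵥ u))).symm
  simp only [e2]
  rw [← ENNReal.tsum_prod (f := fun i (x : ℕ × Λ) =>
    ∫⁻ u in P, (F i '' (A i ∩ t i x.1)).indicator (1 : ℂ → ℝ≥0∞) (x.2 +ᵥ u)),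
    ← lintegral_tsum (f := fun (p : ι × ℕ × Λ) u =>
      (F p.1 '' (A p.1 ∩ t p.1 p.2.1)).indicator (1 : ℂ → ℝ≥0∞) (p.2.2 +ᵥ u)) fun x =>
      ((measurable_one.indicator (m _ _)).comp (measurable_const_add (x.2.2 : ℂ))).aemeasurable]
  refine lintegral_congr fun u => ?_
  let X : Set (ι × ℕ × Λ) := {x | (x.2.2 : ℂ) + u ∈ F x.1 '' (A x.1 ∩ t x.1 x.2.1)}
  let φ : ι × ℕ × Λ → ι × ℂ := fun x =>
    (x.1, Function.invFunOn (F x.1) (A x.1 ∩ t x.1 x.2.1) ((x.2.2 : ℂ) + u))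
  have p1 : ∀ x ∈ X, (φ x).2 ∈ A x.1 ∩ t x.1 x.2.1 := fun x a => Function.invFunOn_mem a
  have p2 : ∀ x ∈ X, F x.1 (φ x).2 = x.2.2 + u := fun x a => Function.invFunOn_eq a
  have inj : InjOn φ X := by
    rintro ⟨i, n, l⟩ a ⟨j, k, l'⟩ b e
    obtain rfl : i = j := congrArg Prod.fst e
    have a1 := p1 _ a
    have a2 := p2 _ a
    rw [e] at a1 a2
    obtain rfl : n = k := by_contra fun c => disjoint_left.1 (h1 i c) a1.2 (p1 _ b).2
    obtain rfl : l = l' := Subtype.ext (add_right_cancel (a2.symm.trans (p2 _ b)))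
    rfl
  have im : φ '' X = {p : ι × ℂ | p.2 ∈ A p.1 ∧ F p.1 p.2 - u ∈ Λ} := by
    refine Subset.antisymm ?_ ?_
    · rintro _ ⟨x, a, rfl⟩
      refine ⟨(p1 x a).1, ?_⟩
      have : F (φ x).1 (φ x).2 = x.2.2 + u := p2 x a
      rw [this, add_sub_cancel_right]
      exact x.2.2.2
    · rintro ⟨i, z⟩ ⟨a, b⟩
      obtain ⟨n, c⟩ := mem_iUnion.1 (h3 i a)
      have k : (i, n, (⟨F i z - u, b⟩ : Λ)) ∈ X := ⟨z, ⟨a, c⟩, (sub_add_cancel _ _).symm⟩
      exact ⟨_, k, Prod.ext rfl (h4 i n (p1 _ k) ⟨a, c⟩ ((p2 _ k).trans (sub_add_cancel _ _)))⟩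
  rw [← im, inj.encard_image, ← ENNReal.tsum_set_one, tsum_subtype X fun _ => (1 : ℝ≥0∞)]
  rfl

/-- the lattice spanned by `w₁, w₂` -/
theorem fund {Λ : Submodule ℤ ℂ} {w₁ w₂ : ℂ} (hw : 0 < (conj w₁ * w₂).im)
    (hΛ : ∀ z, z ∈ Λ ↔ ∃ m n : ℤ, z = m * w₁ + n * w₂) : Countable Λ ∧ ∃ P : Set ℂ,
      IsAddFundamentalDomain Λ P volume ∧ volume P = ENNReal.ofReal (conj w₁ * w₂).im := by
  have li : LinearIndependent ℝ ![w₁, w₂] := LinearIndependent.pair_iff.2 fun s t e => by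
    have a := congrArg (fun z => (conj w₁ * z).im) e
    have b := congrArg (fun z => (conj z * w₂).im) e
    simp only [real_smul, mul_im, conj_re, conj_im, add_im, add_re, mul_re, ofReal_re, ofReal_im,
      zero_im, zero_re] at a b hw
    constructor
    · exact mul_left_cancel₀ hw.ne' (by linear_combination b)
    · exact mul_left_cancel₀ hw.ne' (by linear_combination a)
  let b : Basis (Fin 2) ℝ ℂ := basisOfLinearIndependentOfCardEqFinrank li (by simp [finrank_real_complex])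
  have hb : ⇑b = ![w₁, w₂] := coe_basisOfLinearIndependentOfCardEqFinrank _ _
  obtain rfl : Λ = Submodule.span ℤ (range b) := by
    ext z
    rw [hΛ, hb, Matrix.range_cons_cons_empty, Submodule.mem_span_pair]
    simp only [zsmul_eq_mul, eq_comm]
  refine ⟨inferInstance, _, ZSpan.isAddFundamentalDomain b volume, ?_⟩
  rw [ZSpan.measure_fundamentalDomain b volume basisOneI,
    measure_congr (ZSpan.fundamentalDomain_ae_parallelepiped basisOneI volume),
    ← toBasis_orthonormalBasisOneI, OrthonormalBasis.coe_toBasis,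
    orthonormalBasisOneI.volume_parallelepiped, mul_one, Basis.det_apply, Matrix.det_fin_two]
  simp only [Basis.toMatrix_apply, hb, toBasis_orthonormalBasisOneI, coe_basisOneI_repr,
    Matrix.cons_val_zero, Matrix.cons_val_one]
  rw [← abs_of_pos hw]
  simp only [mul_im, conj_re, conj_im]
  congr 2
  ring

end Vale.Agent.P014T.Dg
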