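import Vale.Agent.P014T.Dg.Md
import Vale.Agent.P014T.Pu.Sp
import Vale.Agent.P004Z.Ar.Plc
import Vale.Agent.P025.R2.H492.Genus

/-! # the degree of the parametrisation is the degree of the field extension -/

open MeasureTheory Set UpperHalfPlane CongruenceSubgroup Filter Topology IntermediateField
open scoped ComplexConjugate MatrixGroups

noncomputable section

namespace Vale.Agent.P014T.Dg

open Vale.Agent.P004Z Vale.Agent.P004Z.Ar Vale.Agent.P004Z.Ar.Fn Vale.Agent.P014T.Pu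
open Vale.Agent.P022.H218.L3 Vale.Agent.P019P P025H492 Vale.Agent.P004H.H666
open Vale.Agent.P022K.F0.Cf hiding MF
open Vale.Agent.P027H (IsLat wp dwp g2 g3)

theorem cnt_of {Z : Set ℍ} (h : ∀ τ, ∀ᶠ z in 𝓝 τ, z ≠ τ → z ∉ Z) : Z.Countable := by
  obtain ⟨s, a, b⟩ := TopologicalSpace.countable_cover_nhds h
  refine a.mono fun z c => ?_
  obtain ⟨τ, d, e⟩ := mem_iUnion₂.1 (b ▸ mem_univ z)
  by_cases q : z = τ
  · exact q ▸ d
  · exact absurd c (e q)

theorem cnt_zero {f : Hol} {c : ℂ} (h : f ≠ algebraMap ℂ Hol c) : {τ | f.1 τ = c}.Countable :=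
  cnt_of fun τ => (Fn.ev_ne (x := jm f) (y := algebraMap ℂ Mer c)
    (fun e => h (jm_inj (e.trans (jm_const c).symm))) τ).mono fun z a b d =>
      a b (by rw [ev_jm, ev_const]; exact d)

theorem cnt_lat {Λ : Submodule ℤ ℂ} (h : IsLat Λ) : (Λ : Set ℂ).Countable := by
  obtain ⟨L, rfl⟩ := h
  exact (countable_range fun p : ℤ × ℤ => p.1 * L.ω₁ + p.2 * L.ω₂).mono fun z a => by
    obtain ⟨m, n, e⟩ := L.mem_lattice.1 a
    exact ⟨(m, n), e⟩

theorem cnt_cos {Λ : Submodule ℤ ℂ} (h : IsLat Λ) (u : ℂ) : {t | t - u ∈ Λ}.Countable :=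
  (cnt_lat h).preimage (f := fun t => t - u) sub_left_injective

/-- almost all fibres have `deg` points -/
theorem fib {k F : Type} [Field k] [Field F] [Algebra k F] [CFF k F] [CharZero k] [DecidableEq k]
    [DecidableEq F] {a b : k} {a' b' : F} (h : Cd a b a' b') {x y : F}
    (n : (crv a' b').Nonsingular x y) (t : Transcendental k x) :
    ∃ B : Set (Plk k F), B.Finite ∧ ∀ R, (∀ Q, sp h Q (.some x y n) = R → Q ∉ B) →
      {Q | sp h Q (.some x y n) = R}.encard = Module.finrank (adjoin k {x, y}) F := by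
  classical
  have := cff_adj (y := y) t
  have := fin_adj (y := y) t
  refine ⟨_, ram_finite k (adjoin k {x, y}) F, fun R nB => ?_⟩
  have bj := (gn_main (h.sub _) (h.ns n) (gn_adj (y := y) t)).1
  obtain ⟨P, rfl⟩ := bj.2 R
  have ov : ∀ Q, sp h Q (.some x y n) = sp (h.sub _) P (.some (gx k x y) (gy k x y) (h.ns n)) ↔
      down (adjoin k {x, y}) Q = P := fun Q => by
    rw [← bj.1.eq_iff, ← sp_down (h.sub _) h (h.sa _) (h.sb _), mp_gen h]
  simp only [ov] at nB ⊢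
  rw [← sum_ram (L := F) P, (over_finite P).encard_eq_coe_toFinset_card, Finset.card_eq_sum_ones]
  exact congrArg _ (Finset.sum_congr rfl fun Q a =>
    (not_not.1 (nB Q ((over_finite P).mem_toFinset.1 a))).symm)

/-- `j` as a holomorphic function -/
def jH : Hol := ⟨jf, jf_mem⟩

theorem cnt_j : {τ | (dH jH).1 τ = 0}.Countable := cnt_zero fun e => by
  obtain ⟨c, q⟩ := const_of_dH (e.trans (map_zero _))
  exact jM_ne_const c ((congrArg jm q).trans (jm_const c))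

variable {Γ : Subgroup SL(2, ℤ)} {N : ℕ} {Λ : Submodule ℤ ℂ} {I G : ℍ → ℂ} {c : ℂ}

theorem val_pt' [CFF ℂ (MF Γ)] {τ : ℍ} {x : MF Γ} {c : ℂ} (h : EF.Val τ x c) :
    P027M.K.Val (pt Γ τ) x c := by
  obtain ⟨r, rfl⟩ := val_ev h
  refine (one_iff _ _).2 (or_iff_not_imp_left.2 fun n m => ?_)
  have n : (x : Mer) - algebraMap ℂ Mer (ev τ x) ≠ 0 := fun e => n (Subtype.ext e)
  have := r.sub_ev n
  have m : Reg τ ((x : Mer) - algebraMap ℂ Mer (ev τ x))⁻¹ := m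
  rw [reg_iff, od_inv, inv_eq_zero, or_iff_right n] at m
  omega

theorem pt_inj (hN : 0 < N) {τ τ' : ℍ} (h : (dH jH).1 τ ≠ 0)
    (e : pt (Gamma0 N) τ = pt (Gamma0 N) τ') : ∃ γ ∈ Gamma0 N, γ • τ = τ' := by
  have m : jm jH ∈ MF (Gamma0 N) := MF_mono le_top jM_mem
  obtain ⟨γ, rfl⟩ := j_inj (τ := τ) (τ' := τ') (by
    rw [← ev_j, ← ev_j]
    exact (val_pt e m (reg_j τ)).symm)
  exact ⟨γ, inv_mem_iff.1 (EF.Gn.stab hN (fix_of m h e
    (act_eq_self jM_mem (Subgroup.mem_top _)) (EF.Gn.jN_mem hN))), rfl⟩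

theorem const_of (hI : Continuous I) (h : (range I).Countable) : I = fun _ => I UpperHalfPlane.I :=
  funext fun z => h.isTotallyDisconnected _ Subset.rfl (isPreconnected_range hI) ⟨z, rfl⟩ ⟨_, rfl⟩

/-- the data of a parametrisation -/
structure Pa (Γ : Subgroup SL(2, ℤ)) (Λ : Submodule ℤ ℂ) (I : ℍ → ℂ) (x y : MF Γ) : Prop where
  lat : IsLat Λ
  hol : I ∈ Hol
  nc : ∀ c, I ≠ fun _ => c
  xv : ∀ τ, I τ ∉ Λ → EF.Val τ x (wp Λ (I τ))
  yv : ∀ τ, I τ ∉ Λ → EF.Val τ y (dwp Λ (I τ) / 2)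

namespace Pa

variable {x y : MF Γ} (h : Pa Γ Λ I x y)

include h

theorem cont : Continuous I := P022K.F0.Cf.cont ⟨I, h.hol⟩

theorem cnt (t : ℂ) : {τ | I τ - t ∈ Λ}.Countable :=
  ((cnt_cos h.lat t).biUnion fun u _ => cnt_zero (f := ⟨I, h.hol⟩) (c := u)
    fun e => h.nc u (congrArg Subtype.val e)).mono fun τ a => mem_iUnion₂.2 ⟨I τ, a, rfl⟩

theorem tr [CFF ℂ (MF Γ)] : Transcendental ℂ x := fun a => by
  obtain ⟨c, e⟩ := alg_const a
  have v : ∀ τ, I τ ∉ Λ → wp Λ (I τ) = c := fun τ n => by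
    rw [← (val_ev (h.xv τ n)).2, ← e]
    exact ev_const τ c
  refine h.nc _ (const_of h.cont ?_)
  by_cases q : ∃ τ, I τ ∉ Λ
  · obtain ⟨τ, n⟩ := q
    refine ((cnt_lat h.lat).union ((cnt_cos h.lat (I τ)).union (cnt_cos h.lat (-I τ)))).mono ?_
    rintro _ ⟨z, rfl⟩
    by_contra k
    simp only [mem_union, not_or, mem_ofPred_eq, sub_neg_eq_add] at k
    exact h.lat.wp_ne k.1 n k.2.1 k.2.2 ((v z k.1).trans (v τ n).symm)
  · exact (cnt_lat h.lat).mono (range_subset_iff.2 fun τ => not_not.1 fun n => q ⟨τ, n⟩)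

theorem cd : Cd (-g2 Λ / 4) (-g3 Λ / 4) (algebraMap ℂ (MF Γ) (-g2 Λ / 4))
    (algebraMap ℂ (MF Γ) (-g3 Λ / 4)) := ⟨rfl, rfl, two_ne_zero, h.lat.disc_ne⟩

theorem eqn : (y : Mer) * y = x * x * x + algebraMap ℂ Mer (-g2 Λ / 4) * x +
    algebraMap ℂ Mer (-g3 Λ / 4) := by
  obtain ⟨τ, n⟩ : ∃ τ, I τ ∉ Λ := by
    by_contra! q
    exact h.nc _ (const_of h.cont ((cnt_lat h.lat).mono (range_subset_iff.2 q)))
  refine eq_of_ev (τ := τ) ((h.cont.continuousAt.eventually (h.lat.notMem_nhds n)).mono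
    fun z a _ => ?_)
  obtain ⟨r, e⟩ := val_ev (h.xv z a)
  obtain ⟨s, f⟩ := val_ev (h.yv z a)
  rw [ev_mul s s, ev_add (((r.mul r).mul r).add ((reg_const _ _).mul r)) (reg_const _ _),
    ev_add ((r.mul r).mul r) ((reg_const _ _).mul r), ev_mul (r.mul r) r, ev_mul r r,
    ev_mul (reg_const _ _) r, ev_const, ev_const, e, f]
  linear_combination h.lat.ode a / 4

theorem ns : (crv (algebraMap ℂ (MF Γ) (-g2 Λ / 4)) (algebraMap ℂ (MF Γ) (-g3 Λ / 4))).Nonsingular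
    x y := (WeierstrassCurve.Affine.equation_iff_nonsingular_of_Δ_ne_zero h.cd.d1).1 (by
  have : y * y = x * x * x + algebraMap ℂ (MF Γ) (-g2 Λ / 4) * x + algebraMap ℂ _ (-g3 Λ / 4) :=
    Subtype.ext h.eqn
  rw [WeierstrassCurve.Affine.equation_iff]
  simp only
  linear_combination this)

end Pa

/-- **the number of preimages is the degree** -/
theorem cnt (hN : 0 < N) {x y : MF (Gamma0 N)} (h : Pa (Gamma0 N) Λ I x y)
    (inv : ∀ γ ∈ Gamma0 N, ∀ τ, I (γ • τ) - I τ ∈ Λ) :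
    {t | {o : Ob (Gamma0 N) | I o.out - t ∈ Λ}.encard ≠
      Module.finrank (adjoin ℂ {x, y}) (MF (Gamma0 N))}.Countable := by
  classical
  have : NeZero N := ⟨hN.ne'⟩
  have := cff (Gamma0 N)
  obtain ⟨B0, f0, hB⟩ := fib h.cd h.ns h.tr
  let s : Plk ℂ (MF (Gamma0 N)) → _ := fun Q => sp h.cd Q (.some x y h.ns)
  have n0 : ∀ t, t ∉ Λ → (crv (-g2 Λ / 4) (-g3 Λ / 4)).Nonsingular (wp Λ t) (dwp Λ t / 2) :=
    fun t a => (WeierstrassCurve.Affine.equation_iff_nonsingular_of_Δ_ne_zero h.cd.d0).1 (by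
      rw [WeierstrassCurve.Affine.equation_iff]
      simp only
      linear_combination h.lat.ode a / 4)
  have iff : ∀ t u a b, WeierstrassCurve.Affine.Point.some _ _ (n0 u a) = .some _ _ (n0 t b) ↔
      u - t ∈ Λ := fun t u a b => by
    rw [WeierstrassCurve.Affine.Point.some.injEq]
    exact ⟨fun e => h.lat.sub_mem_of_eq a b e.1 (by linear_combination 2 * e.2),
      fun e => ⟨h.lat.wp_congr e, by rw [h.lat.dwp_congr e]⟩⟩
  have sv : ∀ τ a, s (pt _ τ) = .some _ _ (n0 (I τ) a) := fun τ a =>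
    (sp_eq_some h.cd h.ns _).2 ⟨val_pt' (h.xv τ a), val_pt' (h.yv τ a)⟩
  let B : Set (Plk ℂ (MF (Gamma0 N))) := B0 ∪ {Q | ord Q (jG _) ≠ 0} ∪
    pt _ '' ({τ | I τ - 0 ∈ Λ} ∪ {τ | (dH jH).1 τ = 0})
  have j0 : jG (Gamma0 N) ≠ 0 := fun e =>
    jM_ne_const 0 ((congrArg Subtype.val e).trans (map_zero (algebraMap ℂ Mer)).symm)
  have cB : B.Countable := (f0.union (dv_finite j0)).countable.union
    (((h.cnt 0).union cnt_j).image _)
  have cT : ∀ Q, {t | ∃ a, s Q = .some _ _ (n0 t a)}.Countable := fun Q => by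
    rcases eq_empty_or_nonempty {t | ∃ a, s Q = .some _ _ (n0 t a)} with e | ⟨u, a, e⟩
    · exact e ▸ countable_empty
    · exact (cnt_cos h.lat u).mono fun t ⟨b, f⟩ => (iff _ _ b a).1 (f.symm.trans e)
  refine ((cnt_lat h.lat).union (cB.biUnion fun Q _ => cT Q)).mono fun t ht => by_contra fun k => ?_
  rw [mem_union, not_or] at k
  have nB : ∀ Q, s Q = .some _ _ (n0 t k.1) → Q ∉ B := fun Q e b => k.2 (mem_biUnion b ⟨k.1, e⟩)
  have mp : ∀ τ, I τ - t ∈ Λ → s (pt _ τ) = .some _ _ (n0 t k.1) := fun τ a => by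
    have b : I τ ∉ Λ := fun b => k.1 (by simpa using sub_mem b a)
    exact (sv τ b).trans ((iff _ _ b k.1).2 a)
  have b : BijOn (fun o : Ob (Gamma0 N) => pt (Gamma0 N) o.out) {o | I o.out - t ∈ Λ}
      {Q | s Q = .some _ _ (n0 t k.1)} := by
    refine ⟨fun o a => mp _ a, fun o a o' _ e => ?_, fun Q a => ?_⟩
    · obtain ⟨γ, m, f⟩ := pt_inj hN (fun z => nB _ (mp _ a) (.inr ⟨_, .inr z, rfl⟩)) e
      rw [← o.out_eq, ← o'.out_eq]
      exact (Quotient.sound (MulAction.orbitRel_apply.2 ⟨⟨γ, m⟩, f⟩)).symm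
    · have nb := nB Q a
      obtain ⟨τ, rfl⟩ := (j_mem Q).1 ((mem_iff_ord _ _).2 (.inr
        (not_not.1 fun z => nb (.inl (.inr z))).ge))
      have l : I τ ∉ Λ := fun z => nb (.inr ⟨_, .inl (by simpa using z), rfl⟩)
      obtain ⟨γ, e⟩ : (Quotient.mk _ τ : Ob (Gamma0 N)).out ∈ MulAction.orbit (Gamma0 N) τ :=
        MulAction.orbitRel_apply.1 (Quotient.mk_out (s := MulAction.orbitRel (Gamma0 N) ℍ) τ)
      exact ⟨Quotient.mk _ τ, (out_mem inv τ t).2 ((iff _ _ l k.1).1 ((sv τ l).symm.trans a)),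
        (congrArg _ e.symm).trans (pt_mv γ.2 τ).symm⟩
  refine ht ?_
  rw [← b.injOn.encard_image, b.image_eq]
  exact hB _ fun Q a z => nB Q a (.inl (.inl z))

/-- **degree times covolume** -/
theorem fdeg (hN : 0 < N) {x y : MF (Gamma0 N)} (h : Pa (Gamma0 N) Λ I x y)
    (inv : ∀ γ ∈ Gamma0 N, ∀ τ, I (γ • τ) - I τ ∈ Λ) {w₁ w₂ : ℂ} (hw : 0 < (conj w₁ * w₂).im)
    (hΛ : ∀ z, z ∈ Λ ↔ ∃ m n : ℤ, z = m * w₁ + n * w₂)
    (hI : ∀ τ : ℍ, HasDerivAt (I ∘ ofComplex) (c * G τ) τ) :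
    ((Module.finrank (adjoin ℂ {x, y}) (MF (Gamma0 N)) * (conj w₁ * w₂).im : ℝ) : ℂ) =
      (‖c‖ ^ 2 : ℝ) * pet2 N G G :=
  deg0 hN hw hΛ hI inv (((cnt hN h inv).ae_notMem volume).mono fun _ a => not_not.1 a)

end Vale.Agent.P014T.Dg
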