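import Vale.Agent.P014T.Dg.Ar
import Vale.Agent.P004Z.St
import Mathlib.Analysis.Calculus.FDeriv.Measurable

/-! # degree times covolume is the Petersson norm -/

open MeasureTheory Set Complex UpperHalfPlane CongruenceSubgroup
open scoped ENNReal ComplexConjugate MatrixGroups Modular

noncomputable section

namespace Vale.Agent.P014T.Dg

open Vale.Agent.P004Z (FD pet2)

/-- the orbits -/
abbrev Ob (Γ : Subgroup SL(2, ℤ)) : Type := MulAction.orbitRel.Quotient Γ ℍ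

def FO : Set ℂ := {z | 0 < z.im ∧ 1 < ‖z‖ ∧ |z.re| < 1 / 2}

theorem fo_open : IsOpen FO := (isOpen_lt continuous_const Complex.continuous_im).inter
  ((isOpen_lt continuous_const continuous_norm).inter (isOpen_lt Complex.continuous_re.abs continuous_const))

theorem fo_sub : FO ⊆ FD := fun _ h => ⟨h.2.2.le, h.2.1.le, h.1⟩

theorem fd_meas : MeasurableSet FD :=
  (isClosed_le Complex.continuous_re.abs continuous_const).measurableSet.inter
    ((isClosed_le continuous_const continuous_norm).measurableSet.inter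
      (isOpen_lt continuous_const Complex.continuous_im).measurableSet)

theorem bd_null : volume (FD \ FO) = 0 := by
  have l : ∀ a : ℝ, volume {z : ℂ | z.re = a} = 0 := fun a =>
    (Measure.quasiMeasurePreserving_fst.comp
      volume_preserving_equiv_real_prod.quasiMeasurePreserving).preimage_null (measure_singleton a)
  refine measure_mono_null (fun z ⟨a, b⟩ => ?_) (measure_union_null (measure_union_null (l (1 / 2))
    (l (-(1 / 2)))) (Measure.addHaar_sphere volume (0 : ℂ) 1))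
  by_contra! c
  simp only [mem_union, mem_ofPred_eq, mem_sphere_zero_iff_norm, not_or] at c
  exact b ⟨a.2.2, lt_of_le_of_ne a.2.1 (Ne.symm c.2), lt_of_le_of_ne a.1 fun e =>
    (eq_or_eq_neg_of_abs_eq e).elim c.1.1 c.1.2⟩

theorem mem_fo {τ : ℍ} : (τ : ℂ) ∈ FO ↔ τ ∈ 𝒟ᵒ := by
  have := ModularGroup.coe_fdo
  rw [FO, ← this, (UpperHalfPlane.coe_injective).mem_set_image]

theorem mem_fd {τ : ℍ} (h : τ ∈ 𝒟) : (τ : ℂ) ∈ FD := by
  have : (τ : ℂ) ∈ (↑) '' 𝒟 := ⟨τ, h, rfl⟩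
  rw [ModularGroup.coe_fd] at this
  exact ⟨this.2.2, this.2.1, this.1⟩

variable {I G : ℍ → ℂ} {c : ℂ}

theorem der (hI : ∀ τ : ℍ, HasDerivAt (I ∘ ofComplex) (c * G τ) τ) (γ : SL(2, ℤ)) (τ : ℍ) :
    HasDerivAt (fun z => I (γ • ofComplex z)) (c * G (γ • τ) / denom γ τ ^ 2) τ := by
  have e : (γ : GL (Fin 2) ℝ).val.det = 1 := (Matrix.SpecialLinearGroup.map _ γ).det_coe
  have a := (hasStrictDerivAt_smul (g := (γ : GL (Fin 2) ℝ)) (e ▸ one_pos) τ).hasDerivAt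
  have b := hI (γ • τ)
  rw [show ((γ • τ : ℍ) : ℂ) = ((γ : GL (Fin 2) ℝ) • ofComplex τ : ℍ) by
    rw [ofComplex_apply]; rfl] at b
  have d := b.comp (τ : ℂ) a
  simp only [Function.comp_def, ofComplex_apply] at d
  refine d.congr_deriv ?_
  rw [e, ofReal_one, mul_one_div]

theorem nm_der (hI : ∀ τ : ℍ, HasDerivAt (I ∘ ofComplex) (c * G τ) τ) (γ : SL(2, ℤ)) (τ : ℍ) :
    ((‖deriv (fun z => I (γ • ofComplex z)) τ‖ ^ 2 : ℝ) : ℂ) =
      (‖c‖ ^ 2 : ℝ) * (petersson 2 G G (γ • τ) / (τ : ℂ).im ^ 2) := by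
  have h0 : ((τ : ℂ).im : ℂ) ≠ 0 := ofReal_ne_zero.2 τ.im_pos.ne'
  have h1 : (‖denom γ τ‖ : ℂ) ≠ 0 := ofReal_ne_zero.2 (norm_ne_zero_iff.2 (denom_ne_zero _ _))
  rw [(der hI γ τ).deriv, petersson, conj_mul', ModularGroup.im_smul_eq_div_normSq,
    normSq_eq_norm_sq, norm_div, norm_mul, norm_pow, ← coe_im, zpow_two]
  push_cast
  field_simp

/-- almost all values are regular -/
theorem good (hI : ∀ τ : ℍ, HasDerivAt (I ∘ ofComplex) (c * G τ) τ) (Λ : Submodule ℤ ℂ)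
    [Countable Λ] : ∀ᵐ t : ℂ, ∀ (γ : SL(2, ℤ)) (τ : ℍ), τ ∈ 𝒟 → I (γ • τ) - t ∈ Λ →
      τ ∈ 𝒟ᵒ ∧ c * G (γ • τ) ≠ 0 := by
  have : Countable SL(2, ℤ) := inferInstanceAs (Countable {A : Fin 2 → Fin 2 → ℤ // _})
  refine ae_all_iff.2 fun γ => ?_
  let F : ℂ → ℂ := fun z => I (γ • ofComplex z)
  have d : ∀ z ∈ FD, HasDerivAt F (deriv F z) z := fun z a =>
    (der hI γ ⟨z, a.2.2⟩).differentiableAt.hasDerivAt
  have n1 : volume (F '' (FD \ FO)) = 0 :=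
    addHaar_image_eq_zero_of_differentiableOn_of_addHaar_eq_zero volume
      (fun z a => (d z a.1).complexToReal_fderiv.differentiableAt.differentiableWithinAt) bd_null
  have n2 : volume (F '' {z ∈ FD | deriv F z = 0}) = 0 :=
    addHaar_image_eq_zero_of_det_fderivWithin_eq_zero volume
      (fun z a => (d z a.1).complexToReal_fderiv.hasFDerivWithinAt) fun z a => by
        rw [det_mul, a.2, norm_zero, zero_pow two_ne_zero]
  have n : ∀ᵐ t : ℂ, ∀ l : Λ, (l : ℂ) + t ∉ F '' (FD \ FO) ∪ F '' {z ∈ FD | deriv F z = 0} :=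
    ae_all_iff.2 fun l => measure_eq_zero_iff_ae_notMem.1
      ((measure_preimage_add volume (l : ℂ) _).trans (measure_union_null n1 n2))
  filter_upwards [n] with t ht τ a b
  have e : F τ = ((⟨_, b⟩ : Λ) : ℂ) + t := by simp only [F, ofComplex_apply, sub_add_cancel]
  exact ⟨by_contra fun k => ht _ (.inl ⟨τ, ⟨mem_fd a, fun q => k (mem_fo.1 q)⟩, e⟩), fun k =>
    ht _ (.inr ⟨τ, ⟨mem_fd a, by rw [(der hI γ τ).deriv, k, zero_div]⟩, e⟩)⟩

theorem good' (hI : ∀ τ : ℍ, HasDerivAt (I ∘ ofComplex) (c * G τ) τ) (Λ : Submodule ℤ ℂ)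
    [Countable Λ] : ∀ᵐ t : ℂ, ∀ τ : ℍ, I τ - t ∈ Λ →
      c * G τ ≠ 0 ∧ ∀ g : SL(2, ℤ), g • τ = τ → g = 1 ∨ g = -1 := by
  filter_upwards [good hI Λ] with t ht τ a
  obtain ⟨g, b⟩ := ModularGroup.exists_smul_mem_fd τ
  have := ht g⁻¹ _ b (by rwa [inv_smul_smul])
  rw [inv_smul_smul] at this
  refine ⟨this.2, fun k e => ?_⟩
  have q := ModularGroup.eq_one_or_neg_one_of_mem_fdo_mem_fd (g := g * k * g⁻¹) this.1
    (by rwa [mul_smul, inv_smul_smul, mul_smul, e])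
  refine q.imp (fun q => ?_) fun q => ?_
  · simpa using q
  · rw [mul_inv_eq_iff_eq_mul, neg_one_mul, ← mul_one g, ← mul_neg, mul_assoc, one_mul] at q
    exact mul_left_cancel q

theorem out_mem {Γ : Subgroup SL(2, ℤ)} {Λ : Submodule ℤ ℂ}
    (inv : ∀ γ ∈ Γ, ∀ τ, I (γ • τ) - I τ ∈ Λ) (τ : ℍ) (t : ℂ) :
    I (Quotient.mk _ τ : Ob Γ).out - t ∈ Λ ↔ I τ - t ∈ Λ := by
  obtain ⟨γ, e⟩ : (Quotient.mk _ τ : Ob Γ).out ∈ MulAction.orbit Γ τ :=
    MulAction.orbitRel_apply.1 (Quotient.mk_out (s := MulAction.orbitRel Γ ℍ) τ)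
  rw [← e, ← Λ.add_mem_iff_right (y := I τ - t) (inv γ γ.2 τ), sub_add_sub_cancel]
  rfl

/-- **the degree formula** -/
theorem deg {Γ : Subgroup SL(2, ℤ)} [Γ.FiniteIndex] (h1 : -1 ∈ Γ) {Λ : Submodule ℤ ℂ} {w₁ w₂ : ℂ}
    (hw : 0 < (conj w₁ * w₂).im) (hΛ : ∀ z, z ∈ Λ ↔ ∃ m n : ℤ, z = m * w₁ + n * w₂)
    (hI : ∀ τ : ℍ, HasDerivAt (I ∘ ofComplex) (c * G τ) τ)
    (inv : ∀ γ ∈ Γ, ∀ τ, I (γ • τ) - I τ ∈ Λ) {m : ℕ}
    (hm : ∀ᵐ t : ℂ, {o : Ob Γ | I o.out - t ∈ Λ}.encard = m) :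
    ((m * (conj w₁ * w₂).im : ℝ) : ℂ) = (‖c‖ ^ 2 : ℝ) * ∑ᶠ q : SL(2, ℤ) ⧸ Γ,
      ∫ z in FD, petersson 2 G G (q.out⁻¹ • ofComplex z) / z.im ^ 2 := by
  obtain ⟨_, P, hP, vP⟩ := fund hw hΛ
  have := Subgroup.fintypeQuotientOfFiniteIndex (H := Γ)
  let F : SL(2, ℤ) ⧸ Γ → ℂ → ℂ := fun q z => I (q.out⁻¹ • ofComplex z)
  have ms : ∀ q, MeasurableSet (deriv (F q) ⁻¹' {0}ᶜ) := fun q =>
    measurable_deriv _ (measurableSet_singleton _).compl
  have ar := area (A := fun q => deriv (F q) ⁻¹' {0}ᶜ ∩ FO) (F := F) (F' := fun q => deriv (F q))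
    (fun q => (ms q).inter fo_open.measurableSet)
    (fun q z a => (der hI _ ⟨z, a.2.1⟩).differentiableAt.hasDerivAt) (fun q z a => a.1) hP
  have e1 : ∀ q, ∫⁻ z in deriv (F q) ⁻¹' {0}ᶜ ∩ FO, ENNReal.ofReal (‖deriv (F q) z‖ ^ 2) =
      ∫⁻ z in FD, ENNReal.ofReal (‖deriv (F q) z‖ ^ 2) := fun q => by
    rw [← setLIntegral_indicator (ms q), setLIntegral_congr (ae_eq_set.2 ⟨by
      rw [sdiff_eq_empty.2 fo_sub, measure_empty], bd_null⟩)]
    refine lintegral_congr fun z => indicator_apply_eq_self.2 fun a => ?_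
    rw [not_not.1 a, norm_zero, zero_pow two_ne_zero, ENNReal.ofReal_zero]
  have e2 : ∀ᵐ t : ℂ, ({p : (SL(2, ℤ) ⧸ Γ) × ℂ | p.2 ∈ deriv (F p.1) ⁻¹' {0}ᶜ ∩ FO ∧
      F p.1 p.2 - t ∈ Λ}.encard : ℝ≥0∞) = m := by
    filter_upwards [hm, good hI Λ] with t ht gd
    let φ : (SL(2, ℤ) ⧸ Γ) × ℂ → Ob Γ := fun p => Quotient.mk _ (p.1.out⁻¹ • ofComplex p.2)
    have b : BijOn φ {p | p.2 ∈ deriv (F p.1) ⁻¹' {0}ᶜ ∩ FO ∧ F p.1 p.2 - t ∈ Λ}
        {o | I o.out - t ∈ Λ} := by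
      refine ⟨fun p a => (out_mem inv _ t).2 a.2, ?_, fun o a => ?_⟩
      · rintro ⟨q, z⟩ ⟨⟨-, a⟩, -⟩ ⟨q', z'⟩ ⟨⟨-, a'⟩, -⟩ e
        obtain ⟨γ, k⟩ := MulAction.orbitRel_apply.1 (Quotient.exact e)
        lift z to ℍ using a.1
        lift z' to ℍ using a'.1
        have k : (q.out * γ * q'.out⁻¹) • z' = z := by
          have k : (γ : SL(2, ℤ)) • q'.out⁻¹ • ofComplex z' = q.out⁻¹ • ofComplex z := k
          rw [ofComplex_apply, ofComplex_apply] at k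
          rw [mul_smul, mul_smul, k, smul_inv_smul]
        have u := ModularGroup.eq_one_or_neg_one_of_mem_fdo_mem_fdo (mem_fo.1 a') (k ▸ mem_fo.1 a)
        have v := ModularGroup.eq_smul_self_of_mem_fdo_mem_fdo (mem_fo.1 a') (k ▸ mem_fo.1 a)
        rw [k] at v
        refine Prod.ext ?_ (congrArg UpperHalfPlane.coe v.symm)
        show q = q'
        rw [← q.out_eq', ← q'.out_eq', QuotientGroup.eq]
        rcases u with u | u
        · rw [← mul_inv_eq_one.1 u, inv_mul_cancel_left]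
          exact γ.2
        · rw [mul_inv_eq_iff_eq_mul, neg_one_mul, ← neg_eq_iff_eq_neg] at u
          rw [← u, mul_neg, inv_mul_cancel_left, ← neg_one_mul]
          exact Γ.mul_mem h1 γ.2
      · obtain ⟨g, b⟩ := ModularGroup.exists_smul_mem_fd o.out
        obtain ⟨γ, e⟩ := QuotientGroup.mk_out_eq_mul Γ g
        have k : (g : SL(2, ℤ) ⧸ Γ).out⁻¹ • g • o.out = γ⁻¹ • o.out := by
          rw [e, mul_inv_rev, mul_smul, inv_smul_smul]
          rfl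
        have j : φ (g, ((g • o.out : ℍ) : ℂ)) = o := by
          simp only [φ, ofComplex_apply, k]
          exact (Quotient.sound (MulAction.orbitRel_apply.2 ⟨_, rfl⟩)).trans o.out_eq
        have l : I ((g : SL(2, ℤ) ⧸ Γ).out⁻¹ • g • o.out) - t ∈ Λ := by
          have := (out_mem inv _ t).1 (show I (φ (g, ((g • o.out : ℍ) : ℂ))).out - t ∈ Λ from
            j.symm ▸ a)
          rwa [ofComplex_apply] at this
        have := gd _ _ b l
        refine ⟨_, ⟨⟨fun y => ?_, mem_fo.2 this.1⟩, by simpa only [F, ofComplex_apply] using l⟩, j⟩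
        exact div_ne_zero this.2 (pow_ne_zero 2 (denom_ne_zero _ _)) ((der hI _ _).deriv.symm.trans y)
    rw [← b.injOn.encard_image, b.image_eq, ht]
    rfl
  simp only [e1] at ar
  rw [lintegral_congr_ae (ae_restrict_of_ae e2), setLIntegral_const, vP, tsum_fintype] at ar
  have fin : ∀ q ∈ Finset.univ, ∫⁻ z in FD, ENNReal.ofReal (‖deriv (F q) z‖ ^ 2) ≠ ⊤ := fun q a =>
    ne_top_of_le_ne_top (ar ▸ ENNReal.mul_ne_top (ENNReal.natCast_ne_top m) ENNReal.ofReal_ne_top)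
      (Finset.single_le_sum (f := fun q => ∫⁻ z in FD, ENNReal.ofReal (‖deriv (F q) z‖ ^ 2))
        (fun _ _ => zero_le) a)
  have := congrArg ENNReal.toReal ar
  rw [ENNReal.toReal_sum fin, ENNReal.toReal_mul, ENNReal.toReal_natCast,
    ENNReal.toReal_ofReal hw.le] at this
  rw [← this, finsum_eq_sum_of_fintype, Finset.mul_sum, ofReal_sum]
  refine Finset.sum_congr rfl fun q _ => ?_
  rw [← integral_eq_lintegral_of_nonneg_ae (.of_forall fun z => sq_nonneg _)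
    ((measurable_deriv _).norm.pow_const 2).aestronglyMeasurable, ← integral_complex_ofReal,
    ← integral_const_mul]
  refine setIntegral_congr_fun fd_meas fun z a => ?_
  lift z to ℍ using a.2.2
  simp only [ofComplex_apply]
  exact nm_der hI _ z

theorem neg_one_mem (N : ℕ) : -1 ∈ Gamma0 N := by simp [Gamma0_mem]

theorem deg0 {N : ℕ} (hN : 0 < N) {Λ : Submodule ℤ ℂ} {w₁ w₂ : ℂ}
    (hw : 0 < (conj w₁ * w₂).im) (hΛ : ∀ z, z ∈ Λ ↔ ∃ m n : ℤ, z = m * w₁ + n * w₂)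
    (hI : ∀ τ : ℍ, HasDerivAt (I ∘ ofComplex) (c * G τ) τ)
    (inv : ∀ γ ∈ Gamma0 N, ∀ τ, I (γ • τ) - I τ ∈ Λ) {m : ℕ}
    (hm : ∀ᵐ t : ℂ, {o : Ob (Gamma0 N) | I o.out - t ∈ Λ}.encard = m) :
    ((m * (conj w₁ * w₂).im : ℝ) : ℂ) = (‖c‖ ^ 2 : ℝ) * pet2 N G G :=
  have : NeZero N := ⟨hN.ne'⟩
  deg (neg_one_mem N) hw hΛ hI inv hm

end Vale.Agent.P014T.Dg
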